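import Vale.Agent.P305.H529.Ball.Defs
import Vale.Agent.P305.H529.Pair

/-! Complements of circular-arc graphs. -/

set_option autoImplicit false

namespace Vale.Agent.P305.H529

theorem coe_eq_iff (x y : ℝ) : (x : AddCircle (1 : ℝ)) = (y : AddCircle (1 : ℝ)) ↔
    ∃ k : ℤ, x = y + k := by
  rw [← sub_eq_zero, ← AddCircle.coe_sub, AddCircle.coe_eq_zero_iff]
  constructor
  · rintro ⟨k, hk⟩
    exact ⟨k, by simp at hk; linarith⟩
  · rintro ⟨k, hk⟩
    exact ⟨k, by simp; linarith⟩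

/-- Two arcs meet iff a lift of the second one meets the first one. -/
theorem arc_meet {l u l' u' : ℝ} (h : l ≤ u) (h' : l' ≤ u') :
    ¬ Disjoint ((fun x : ℝ => (x : AddCircle (1 : ℝ))) '' Set.Icc l u)
      ((fun x : ℝ => (x : AddCircle (1 : ℝ))) '' Set.Icc l' u') ↔
    ∃ k : ℤ, l ≤ u' + k ∧ l' + k ≤ u := by
  rw [Set.not_disjoint_iff]
  constructor
  · rintro ⟨_, ⟨x, hx, rfl⟩, ⟨y, hy, hxy⟩⟩
    obtain ⟨k, hk⟩ := (coe_eq_iff x y).1 hxy.symm
    have h1 := hx.1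
    have h2 := hx.2
    have h3 := hy.1
    have h4 := hy.2
    exact ⟨k, by linarith, by linarith⟩
  · rintro ⟨k, h1, h2⟩
    refine ⟨((max l (l' + k) : ℝ) : AddCircle (1 : ℝ)), ⟨_, ⟨le_max_left _ _, max_le h h2⟩, rfl⟩,
      ⟨max l (l' + k) - k, ⟨by linarith [le_max_right l (l' + k)], ?_⟩, ?_⟩⟩
    · have := max_le h1 (add_le_add_left h' (k : ℝ))
      linarith
    · rw [coe_eq_iff]
      exact ⟨-k, by push_cast; ring⟩

/-- Two disjoint arcs have disjoint consecutive lifts. -/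
theorem arc_lift {l u l' u' : ℝ}
    (hd : ¬ ∃ k : ℤ, l ≤ u' + k ∧ l' + k ≤ u) : ∃ k : ℤ, u < l' + k ∧ u' + k < l + 1 := by
  push Not at hd
  refine ⟨⌊u - l'⌋ + 1, ?_, ?_⟩
  · have := Int.lt_floor_add_one (u - l')
    push_cast
    linarith
  · by_contra hc
    push Not at hc
    have h1 := hd ⌊u - l'⌋ (by push_cast at hc; linarith)
    have := Int.floor_le (u - l')
    linarith

/-- In the complement of a circular-arc graph, the vertices non-adjacent to both ends of an edge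
induce a bipartite graph. -/
theorem coarc_pair {V : Type} (G : SimpleGraph V) (hG : IsCoArc G) (S T : Set V)
    (hST : ∀ u ∈ S, ∀ v ∈ T, u ≠ v ∧ ¬ G.Adj u v) (hS : ¬ (G.induce S).IsBipartite)
    (hT : ¬ (G.induce T).IsBipartite) : False := by
  classical
  obtain ⟨l, u, hlu, hadj⟩ := hG
  have adj' : ∀ a b, a ≠ b → (G.Adj a b ↔ ¬ ∃ k : ℤ, l a ≤ u b + k ∧ l b + k ≤ u a) := by
    intro a b hab
    rw [hadj a b hab, ← arc_meet (hlu a) (hlu b), not_not]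
  obtain ⟨s, a, hs, -, haS, haadj⟩ := exists_odd_walk G S hS
  have hxx := haadj 0 hs.pos
  obtain ⟨x, hx⟩ : ∃ x, x = a 0 := ⟨_, rfl⟩
  obtain ⟨x', hx'⟩ : ∃ x', x' = a (0 + 1) := ⟨_, rfl⟩
  have hxS : x ∈ S := hx ▸ haS 0
  have hxS' : x' ∈ S := hx' ▸ haS (0 + 1)
  rw [← hx, ← hx'] at hxx
  obtain ⟨k, hk1, hk2⟩ := arc_lift ((adj' x x' hxx.ne).1 hxx)
  obtain ⟨p, hp⟩ : ∃ p, p = l x' + k := ⟨_, rfl⟩
  obtain ⟨q, hq⟩ : ∃ q, q = u x' + k := ⟨_, rfl⟩
  have hpq : p ≤ q := by rw [hp, hq]; linarith [hlu x']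
  rw [← hp] at hk1
  rw [← hq] at hk2
  apply hT
  refine ⟨SimpleGraph.Coloring.mk (fun y : T =>
    if ∃ i : ℤ, l y + i ≤ u x ∧ p ≤ u y + i then (0 : Fin 2) else 1) ?_⟩
  have type2 : ∀ y ∈ T, (¬ ∃ i : ℤ, l y + i ≤ u x ∧ p ≤ u y + i) →
      ∃ i : ℤ, l y + i ≤ q ∧ l x + 1 ≤ u y + i := by
    intro y hy hn
    have m1 : ∃ i : ℤ, l x ≤ u y + i ∧ l y + i ≤ u x := by
      by_contra hc
      exact (hST x hxS y hy).2 ((adj' x y (hST x hxS y hy).1).2 hc)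
    have m2 : ∃ i : ℤ, l x' ≤ u y + i ∧ l y + i ≤ u x' := by
      by_contra hc
      exact (hST x' hxS' y hy).2 ((adj' x' y (hST x' hxS' y hy).1).2 hc)
    obtain ⟨i, hi1, hi2⟩ := m1
    obtain ⟨j, hj1, hj2⟩ := m2
    have e1 : u y + i < p := by
      by_contra hc
      exact hn ⟨i, hi2, not_lt.1 hc⟩
    have e2 : p ≤ u y + (j + k) := by rw [hp]; linarith
    have e3 : l y + (j + k) ≤ q := by rw [hq]; linarith
    refine ⟨j + k, by push_cast; linarith, ?_⟩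
    have e4 : (i : ℝ) < ((j + k : ℤ) : ℝ) := by push_cast; linarith
    have e5 : i + 1 ≤ j + k := by exact_mod_cast e4
    have e6 : (i : ℝ) + 1 ≤ ((j + k : ℤ) : ℝ) := by exact_mod_cast e5
    linarith
  intro y z hyz hcol
  have hyz' : G.Adj (y : V) z := hyz
  have hno := (adj' _ _ hyz'.ne).1 hyz'
  by_cases h1 : ∃ i : ℤ, l (y : V) + i ≤ u x ∧ p ≤ u (y : V) + i
  · by_cases h2 : ∃ i : ℤ, l (z : V) + i ≤ u x ∧ p ≤ u (z : V) + i
    · obtain ⟨i, hi1, hi2⟩ := h1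
      obtain ⟨j, hj1, hj2⟩ := h2
      exact hno ⟨j - i, by push_cast; linarith, by push_cast; linarith⟩
    · rw [if_pos h1, if_neg h2] at hcol
      exact absurd hcol (by decide)
  · by_cases h2 : ∃ i : ℤ, l (z : V) + i ≤ u x ∧ p ≤ u (z : V) + i
    · rw [if_neg h1, if_pos h2] at hcol
      exact absurd hcol (by decide)
    · obtain ⟨i, hi1, hi2⟩ := type2 y y.2 h1
      obtain ⟨j, hj1, hj2⟩ := type2 z z.2 h2
      exact hno ⟨j - i, by push_cast; linarith, by push_cast; linarith⟩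

end Vale.Agent.P305.H529
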