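import Vale.Agent.P305.H529.Ball.Defs
import Vale.Agent.P305.H529.Pair

/-! Complements of intersection graphs of axis-parallel boxes. -/

set_option autoImplicit false

namespace Vale.Agent.P305.H529

theorem box_disjoint {d : ℕ} {l u l' u' : Fin d → ℝ} (h : l ≤ u) (h' : l' ≤ u')
    (hd : Disjoint (Set.Icc l u) (Set.Icc l' u')) : ∃ k, u k < l' k ∨ u' k < l k := by
  by_contra hc
  push Not at hc
  refine Set.disjoint_left.1 hd (show l ⊔ l' ∈ Set.Icc l u from ⟨le_sup_left, fun k => ?_⟩)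
    ⟨le_sup_right, fun k => ?_⟩
  · exact sup_le (h k) (hc k).1
  · exact sup_le (hc k).2 (h' k)

theorem box_meet {d : ℕ} {l u l' u' : Fin d → ℝ}
    (hd : ¬ Disjoint (Set.Icc l u) (Set.Icc l' u')) (k : Fin d) : l' k ≤ u k := by
  rw [Set.not_disjoint_iff] at hd
  obtain ⟨z, hz, hz'⟩ := hd
  exact (hz'.1 k).trans (hz.2 k)

/-- Pairwise non-adjacent non-bipartite sets of the complement of a box graph use different
coordinates. -/
theorem box_packing {V : Type} {d k : ℕ} (G : SimpleGraph V) (hG : IsCoBox d G)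
    (S : Fin k → Set V) (hS : ∀ i, ¬ (G.induce (S i)).IsBipartite)
    (hST : ∀ i j, i ≠ j → ∀ u ∈ S i, ∀ v ∈ S j, u ≠ v ∧ ¬ G.Adj u v) : k ≤ d := by
  obtain ⟨l, u, hlu, hadj⟩ := hG
  have key : ∀ i, ∃ (a b : V) (κ : Fin d), a ∈ S i ∧ b ∈ S i ∧ u a κ < l b κ := by
    intro i
    obtain ⟨s, a, hs, -, haS, haadj⟩ := exists_odd_walk G (S i) (hS i)
    have h1 := haadj 0 hs.pos
    obtain ⟨κ, h | h⟩ := box_disjoint (hlu _) (hlu _) ((hadj _ _ h1.ne).1 h1)
    · exact ⟨a 0, a (0 + 1), κ, haS _, haS _, h⟩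
    · exact ⟨a (0 + 1), a 0, κ, haS _, haS _, h⟩
  choose a b κ ha hb h using key
  have hinj : Function.Injective κ := by
    intro i j hij
    by_contra hne
    have m1 : l (b j) (κ i) ≤ u (a i) (κ i) := by
      have h1 := hST i j hne _ (ha i) _ (hb j)
      exact box_meet (fun hd => h1.2 ((hadj _ _ h1.1).2 hd)) _
    have m2 : l (b i) (κ i) ≤ u (a j) (κ i) := by
      have h1 := hST j i (Ne.symm hne) _ (ha j) _ (hb i)
      exact box_meet (fun hd => h1.2 ((hadj _ _ h1.1).2 hd)) _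
    have h1 := h i
    have h2 := h j
    rw [← hij] at h2
    linarith
  simpa using Fintype.card_le_of_injective κ hinj

end Vale.Agent.P305.H529
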