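import Mathlib.Analysis.InnerProductSpace.Basic

/-! The metric core of the argument for unit balls. -/

set_option autoImplicit false

namespace Vale.Agent.P305.H529

open scoped InnerProductSpace

variable {F : Type} [NormedAddCommGroup F] [InnerProductSpace ℝ F]

theorem core_real {N G B k ρ a c : ℝ} (hB : 0 ≤ B) (hCS : G ^ 2 ≤ N * B) (ha : 0 ≤ a) (hc : 0 ≤ c)
    (hN : 0 ≤ N) (e1 : N + 2 * k * G < 0) (e2 : N - 2 * G < 0) (e3 : ρ < k ^ 2 * B + a)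
    (e4 : ρ < B + c) (e5 : N + 2 * (k - 1) * G + (k - 1) ^ 2 * B + a + c < ρ) (e6 : N < ρ) :
    False := by
  have hG : 0 < G := by linarith
  have hk : k < 0 := by
    by_contra h
    push Not at h
    nlinarith [mul_nonneg h hG.le]
  obtain ⟨κ, rfl⟩ : ∃ κ, k = -κ := ⟨-k, by ring⟩
  have hκ : 0 < κ := by linarith
  obtain ⟨K, hK⟩ : ∃ K, K = N - 2 * (κ + 1) * G + (κ + 1) ^ 2 * B := ⟨_, rfl⟩
  have i1 : K < κ ^ 2 * B := by rw [hK]; nlinarith
  have i2 : K < B := by rw [hK]; nlinarith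
  have i3 : N + K < κ ^ 2 * B + B := by rw [hK]; nlinarith
  have hBK : ((κ + 1) * B - G) ^ 2 ≤ B * K := by rw [hK]; nlinarith
  have hB0 : 0 < B := by
    rcases hB.lt_or_eq with h | h
    · exact h
    · rw [← h] at hCS
      nlinarith
  have g1 : κ * B < G := by
    by_contra h
    push Not at h
    have h1 : B ^ 2 ≤ ((κ + 1) * B - G) ^ 2 :=
      pow_le_pow_left₀ hB0.le (by linarith) 2
    nlinarith
  have g2 : B < G := by
    by_contra h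
    push Not at h
    have h1 : (κ * B) ^ 2 ≤ ((κ + 1) * B - G) ^ 2 :=
      pow_le_pow_left₀ (by positivity) (by linarith) 2
    nlinarith
  have h1 : B * (N + K) < B * (κ ^ 2 * B + B) := mul_lt_mul_of_pos_left i3 hB0
  nlinarith [mul_pos (sub_pos.2 g1) (sub_pos.2 g2)]

theorem core_norm (D p q r t : F) (l m l' m' k ρ : ℝ) (hl : 0 ≤ l) (hm : 0 ≤ m) (hlm : l + m = 1)
    (hl' : 0 ≤ l') (hm' : 0 ≤ m') (hlm' : l' + m' = 1)
    (hpar : l • p + m • q = k • (l' • r + m' • t))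
    (h1 : ρ < ⟪p, p⟫_ℝ) (h2 : ρ < ⟪q, q⟫_ℝ) (h3 : ρ < ⟪r, r⟫_ℝ) (h4 : ρ < ⟪t, t⟫_ℝ)
    (h5 : ⟪D, D⟫_ℝ < ρ) (h6 : ⟪D + p, D + p⟫_ℝ < ρ) (h7 : ⟪D + q, D + q⟫_ℝ < ρ)
    (h8 : ⟪D - r, D - r⟫_ℝ < ρ) (h9 : ⟪D - t, D - t⟫_ℝ < ρ)
    (h10 : ⟪D + p - r, D + p - r⟫_ℝ < ρ) (h11 : ⟪D + p - t, D + p - t⟫_ℝ < ρ)
    (h12 : ⟪D + q - r, D + q - r⟫_ℝ < ρ) (h13 : ⟪D + q - t, D + q - t⟫_ℝ < ρ) : False := by
  obtain rfl : m = 1 - l := by linarith
  obtain rfl : m' = 1 - l' := by linarith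
  obtain ⟨R, hR⟩ : ∃ R, R = l' • r + (1 - l') • t := ⟨_, rfl⟩
  obtain ⟨P, hP⟩ : ∃ P, P = l • p + (1 - l) • q := ⟨_, rfl⟩
  rw [← hR, ← hP] at hpar
  have lt_avg : ∀ {x y w b : ℝ}, 0 ≤ w → 0 ≤ 1 - w → x < b → y < b → w * x + (1 - w) * y < b := by
    intro x y w b hw hw' hx hy
    nlinarith [mul_nonneg hw (sub_nonneg.2 hx.le), mul_nonneg hw' (sub_nonneg.2 hy.le),
      mul_nonneg hw (sub_nonneg.2 (min_le_left (b - x) (b - y))),
      mul_nonneg hw' (sub_nonneg.2 (min_le_right (b - x) (b - y))),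
      lt_min (sub_pos.2 hx) (sub_pos.2 hy)]
  have gt_avg : ∀ {x y w b : ℝ}, 0 ≤ w → 0 ≤ 1 - w → b < x → b < y → b < w * x + (1 - w) * y := by
    intro x y w b hw hw' hx hy
    have := lt_avg hw hw' (neg_lt_neg hx) (neg_lt_neg hy)
    linarith
  have A1 : l * ⟪p, p⟫_ℝ + (1 - l) * ⟪q, q⟫_ℝ = ⟪P, P⟫_ℝ + l * (1 - l) * ⟪p - q, p - q⟫_ℝ := by
    rw [hP]
    simp only [inner_add_left, inner_add_right, inner_sub_left, inner_sub_right,
      real_inner_smul_left, real_inner_smul_right, real_inner_comm p q]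
    ring
  have A2 : l' * ⟪r, r⟫_ℝ + (1 - l') * ⟪t, t⟫_ℝ =
      ⟪R, R⟫_ℝ + l' * (1 - l') * ⟪r - t, r - t⟫_ℝ := by
    rw [hR]
    simp only [inner_add_left, inner_add_right, inner_sub_left, inner_sub_right,
      real_inner_smul_left, real_inner_smul_right, real_inner_comm r t]
    ring
  have A3 : l * (l' * ⟪D + p - r, D + p - r⟫_ℝ + (1 - l') * ⟪D + p - t, D + p - t⟫_ℝ) +
      (1 - l) * (l' * ⟪D + q - r, D + q - r⟫_ℝ + (1 - l') * ⟪D + q - t, D + q - t⟫_ℝ) =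
      ⟪D + P - R, D + P - R⟫_ℝ + l * (1 - l) * ⟪p - q, p - q⟫_ℝ +
        l' * (1 - l') * ⟪r - t, r - t⟫_ℝ := by
    rw [hR, hP]
    simp only [inner_add_left, inner_add_right, inner_sub_left, inner_sub_right,
      real_inner_smul_left, real_inner_smul_right, real_inner_comm r t, real_inner_comm p q,
      real_inner_comm D p, real_inner_comm D q, real_inner_comm D r, real_inner_comm D t,
      real_inner_comm r p, real_inner_comm r q, real_inner_comm t p, real_inner_comm t q]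
    ring
  have A4 : l * (⟪D + p, D + p⟫_ℝ - ⟪p, p⟫_ℝ) + (1 - l) * (⟪D + q, D + q⟫_ℝ - ⟪q, q⟫_ℝ) =
      ⟪D, D⟫_ℝ + 2 * ⟪D, P⟫_ℝ := by
    rw [hP]
    simp only [inner_add_left, inner_add_right, real_inner_smul_right,
      real_inner_comm D p, real_inner_comm D q]
    ring
  have A5 : l' * (⟪D - r, D - r⟫_ℝ - ⟪r, r⟫_ℝ) + (1 - l') * (⟪D - t, D - t⟫_ℝ - ⟪t, t⟫_ℝ) =
      ⟪D, D⟫_ℝ - 2 * ⟪D, R⟫_ℝ := by
    rw [hR]
    simp only [inner_sub_left, inner_sub_right, inner_add_right, real_inner_smul_right,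
      real_inner_comm D r, real_inner_comm D t]
    ring
  have P1 : ⟪P, P⟫_ℝ = k ^ 2 * ⟪R, R⟫_ℝ := by
    rw [hpar, real_inner_smul_left, real_inner_smul_right]; ring
  have P2 : ⟪D, P⟫_ℝ = k * ⟪D, R⟫_ℝ := by rw [hpar, real_inner_smul_right]
  have P3 : ⟪D + P - R, D + P - R⟫_ℝ =
      ⟪D, D⟫_ℝ + 2 * (k - 1) * ⟪D, R⟫_ℝ + (k - 1) ^ 2 * ⟪R, R⟫_ℝ := by
    rw [hpar]
    simp only [inner_add_left, inner_add_right, inner_sub_left, inner_sub_right,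
      real_inner_smul_left, real_inner_smul_right, real_inner_comm D R]
    ring
  refine core_real (N := ⟪D, D⟫_ℝ) (G := ⟪D, R⟫_ℝ) (B := ⟪R, R⟫_ℝ) (k := k) (ρ := ρ)
    (a := l * (1 - l) * ⟪p - q, p - q⟫_ℝ) (c := l' * (1 - l') * ⟪r - t, r - t⟫_ℝ)
    real_inner_self_nonneg ?_ (mul_nonneg (mul_nonneg hl hm) real_inner_self_nonneg)
    (mul_nonneg (mul_nonneg hl' hm') real_inner_self_nonneg)
    real_inner_self_nonneg ?_ ?_ ?_ ?_ ?_ h5
  · have := real_inner_mul_inner_self_le D R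
    rw [pow_two]; exact this
  · have := lt_avg hl hm (sub_neg.2 (h6.trans h1)) (sub_neg.2 (h7.trans h2))
    rw [A4, P2] at this
    linarith
  · have := lt_avg hl' hm' (sub_neg.2 (h8.trans h3)) (sub_neg.2 (h9.trans h4))
    rw [A5] at this
    linarith
  · have := gt_avg hl hm h1 h2
    rw [A1, P1] at this
    linarith
  · have := gt_avg hl' hm' h3 h4
    rw [A2] at this
    linarith
  · have := lt_avg hl hm (lt_avg hl' hm' h10 h11) (lt_avg hl' hm' h12 h13)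
    rw [A3, P3] at this
    linarith

end Vale.Agent.P305.H529
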