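import Vale.Agent.P305.H529.Geo

/-! Two closed polygons of a plane cross an even number of times. -/

set_option autoImplicit false

namespace Vale.Agent.P305.H529

open Finset

variable {E : Type} [AddCommGroup E] [Module ℝ E] (f g : E →ₗ[ℝ] ℝ)

theorem ori_ne_swap {p q x : E} (h : ori f g p q x ≠ 0) : ori f g q p x ≠ 0 := by
  rw [ori_swap]; exact neg_ne_zero.2 h

/-- The number of crossings of a closed polygon with a segment depends only on the ends of the
segment, modulo two. -/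
theorem seg_sum {s : ℕ} (A : ℕ → E) (hA : A s = A 0) (Z U V : E)
    (h1 : ∀ i, ori f g Z (A i) (A (i + 1)) ≠ 0)
    (h2 : ∀ i, ori f g Z (A i) U ≠ 0) (h3 : ∀ i, ori f g (A i) (A (i + 1)) U ≠ 0)
    (h2' : ∀ i, ori f g Z (A i) V ≠ 0) (h3' : ∀ i, ori f g (A i) (A (i + 1)) V ≠ 0)
    (h4 : ori f g U V Z ≠ 0) (h5 : ∀ i, ori f g U V (A i) ≠ 0) :
    ∑ i ∈ range s, bt (crs f g U V (A i) (A (i + 1))) =
      ∑ i ∈ range s, bt (ins f g Z (A i) (A (i + 1)) U) +
      ∑ i ∈ range s, bt (ins f g Z (A i) (A (i + 1)) V) := by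
  have key : ∀ i ∈ range s, bt (crs f g U V (A i) (A (i + 1))) =
      (bt (ins f g Z (A i) (A (i + 1)) U) + bt (ins f g Z (A i) (A (i + 1)) V)) +
      (bt (crs f g U V Z (A i)) + bt (crs f g U V Z (A (i + 1)))) := by
    intro i _
    have h := triangle f g U V Z (A i) (A (i + 1)) (h1 i) (h2 i) (h3 i)
      (ori_ne_swap f g (h2 _)) (h2' i) (h3' i) (ori_ne_swap f g (h2' _)) h4 (h5 _) (h5 _)
    have h6 := congrArg bt h
    rw [bt_xor, bt_xor, bt_xor, crs_swap f g (x := U) (y := V) (p := Z) (q := A (i + 1))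
      (h2 _) (h2' _)] at h6
    rw [← h6]
    have e1 := two_zero (bt (crs f g U V Z (A i)))
    have e2 := two_zero (bt (crs f g U V Z (A (i + 1))))
    linear_combination -e1 - e2
  rw [sum_congr rfl key, sum_add_distrib, sum_add_distrib,
    tele_closed (fun i => bt (crs f g U V Z (A i))) s (by simp only [hA]), add_zero]

/-- Two closed polygons cross an even number of times. -/
theorem cross_even {s t : ℕ} (A B : ℕ → E) (hA : A s = A 0) (hB : B t = B 0) (Z : E)
    (hZA : ∀ i, ori f g Z (A i) (A (i + 1)) ≠ 0) (hZB : ∀ j, ori f g (B j) (B (j + 1)) Z ≠ 0)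
    (hZAB : ∀ i j, ori f g Z (A i) (B j) ≠ 0)
    (hAB : ∀ i j, ori f g (A i) (A (i + 1)) (B j) ≠ 0)
    (hBA : ∀ i j, ori f g (B j) (B (j + 1)) (A i) ≠ 0) :
    ∑ i ∈ range s, ∑ j ∈ range t,
      (bt (sg f g (A i) (A (i + 1)) (B j)) + bt (sg f g (A i) (A (i + 1)) (B (j + 1)))) *
      (bt (sg f g (B j) (B (j + 1)) (A i)) + bt (sg f g (B j) (B (j + 1)) (A (i + 1)))) = 0 := by
  rw [sum_comm]
  have : ∀ j ∈ range t, ∑ i ∈ range s,
      (bt (sg f g (A i) (A (i + 1)) (B j)) + bt (sg f g (A i) (A (i + 1)) (B (j + 1)))) *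
      (bt (sg f g (B j) (B (j + 1)) (A i)) + bt (sg f g (B j) (B (j + 1)) (A (i + 1)))) =
      ∑ i ∈ range s, bt (ins f g Z (A i) (A (i + 1)) (B j)) +
      ∑ i ∈ range s, bt (ins f g Z (A i) (A (i + 1)) (B (j + 1))) := by
    intro j _
    rw [← seg_sum f g A hA Z (B j) (B (j + 1)) hZA (fun i => hZAB i j) (fun i => hAB i j)
      (fun i => hZAB i _) (fun i => hAB i _) (hZB j) (fun i => hBA i j)]
    refine sum_congr rfl fun i _ => ?_
    rw [crs, bt_and, bt_bne, bt_bne]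
  rw [sum_congr rfl this]
  exact tele_closed (fun j => ∑ i ∈ range s, bt (ins f g Z (A i) (A (i + 1)) (B j))) t
    (by simp only [hB])

end Vale.Agent.P305.H529
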