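import Vale.Agent.P305.OddDefs
import Mathlib.Analysis.InnerProductSpace.PiL2
import Mathlib.Topology.Instances.AddCircle.Defs

/-! Complements of unit ball graphs, of circular-arc graphs and of intersection graphs of boxes. -/

set_option autoImplicit false

namespace Vale.Agent.P305.H529

/-- `G` is the complement of a unit ball graph of three-dimensional Euclidean space: two different
vertices are adjacent in `G` iff the closed unit balls around their centres are disjoint. -/
def IsCoBall {V : Type} (G : SimpleGraph V) : Prop :=
  ∃ c : V → EuclideanSpace ℝ (Fin 3), ∀ u v, u ≠ v →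
    (G.Adj u v ↔ Disjoint (Metric.closedBall (c u) 1) (Metric.closedBall (c v) 1))

/-- `G` is the complement of a circular-arc graph: two different vertices are adjacent in `G` iff
their closed arcs of a circle are disjoint. -/
def IsCoArc {V : Type} (G : SimpleGraph V) : Prop :=
  ∃ l u : V → ℝ, (∀ v, l v ≤ u v) ∧ ∀ a b, a ≠ b →
    (G.Adj a b ↔ Disjoint ((fun x : ℝ => (x : AddCircle (1 : ℝ))) '' Set.Icc (l a) (u a))
      ((fun x : ℝ => (x : AddCircle (1 : ℝ))) '' Set.Icc (l b) (u b)))

/-- `G` is the complement of an intersection graph of axis-parallel boxes of `d`-dimensional space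
(the complement of `G` has boxicity at most `d`): two different vertices are adjacent in `G` iff
their boxes are disjoint. -/
def IsCoBox (d : ℕ) {V : Type} (G : SimpleGraph V) : Prop :=
  ∃ l u : V → Fin d → ℝ, (∀ v, l v ≤ u v) ∧ ∀ a b, a ≠ b →
    (G.Adj a b ↔ Disjoint (Set.Icc (l a) (u a)) (Set.Icc (l b) (u b)))

end Vale.Agent.P305.H529
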