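import Vale.Agent.P305.H529.Ball.Param

/-! Graphs whose components have packing number at most one need a single search. -/

set_option autoImplicit false

namespace Vale.Agent.P305.H529

open Vale.Agent.P305.H287

theorem im_empty {n : ℕ} (G : SimpleGraph (Fin n)) : inducedMatchingAt G ∅ = 0 := by
  refine Nat.le_zero.1 (csSup_le ⟨0, fun i => i.elim0, fun i => i.elim0, fun i => i.elim0,
    fun i => i.elim0⟩ ?_)
  rintro k ⟨a, b, h⟩
  by_contra hk
  exact (h.1 ⟨0, by omega⟩).1

theorem searches_eq_zero {n : ℕ} (G : SimpleGraph (Fin n))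
    (h : ∀ K : G.ConnectedComponent, oddPackingIn G K.supp ≤ 1) : searches G = 0 := by
  have h1 := searches_le_im G ∅ (by simpa only [Set.sdiff_empty] using h)
  rw [im_empty] at h1
  exact Nat.le_zero.1 h1

theorem two_mul_searches_le {n : ℕ} (G : SimpleGraph (Fin n)) :
    2 * searches G ≤ oddPacking G :=
  (two_mul_searches_le_excess G).trans (excess_le_oddPacking G)

/-- One bipartite call and one search for all graphs each of whose components has packing number
at most one. -/
theorem one_reduction (T : ℕ → ℕ → ℕ)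
    (hT : ∀ n n' m m', n ≤ n' → m ≤ m' → T n m ≤ T n' m')
    (hP : ∃ P, Solves P (fun _ G => G.IsBipartite) (fun n G => T n G.edgeSet.ncard)) :
    ∃ P C, Solves P (fun _ G => ∀ K : G.ConnectedComponent, oddPackingIn G K.supp ≤ 1)
      (fun n G => C * (T (2 * n) (2 * G.edgeSet.ncard) +
        (Nat.log 2 n + 1) * (n + G.edgeSet.ncard + 1))) := by
  obtain ⟨P, C, h⟩ := comp_reduction T hT hP
  refine ⟨P, C, h.mono (fun _ _ _ => trivial) fun n G hG => ?_⟩
  rw [searches_eq_zero G hG, zero_add, one_mul]

end Vale.Agent.P305.H529
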