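import Vale.Agent.P305.H529.Ball.Cross
import Mathlib.Analysis.Analytic.Constructions
import Mathlib.Analysis.Analytic.Uniqueness
import Mathlib.Analysis.Analytic.Linear

/-! Two closed polygons of odd length in the projective plane cross. -/

set_option autoImplicit false

namespace Vale.Agent.P305.H529

open Finset

/-- The determinant of three vectors. -/
def det3 (a b c : Fin 3 → ℝ) : ℝ :=
  a 0 * (b 1 * c 2 - b 2 * c 1) - a 1 * (b 0 * c 2 - b 2 * c 0) + a 2 * (b 0 * c 1 - b 1 * c 0)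

/-- The sign bit of a nonzero real number, in `ℤ/2`. -/
noncomputable def nb (x : ℝ) : ZMod 2 := 1 + bt (pos x)

theorem bt_beq (a b : Bool) : bt (a == b) = 1 + bt a + bt b := by
  cases a <;> cases b <;> decide

theorem one_one : (1 : ZMod 2) + 1 = 0 := by decide

theorem nb_mul {x y : ℝ} (hx : x ≠ 0) (hy : y ≠ 0) : nb (x * y) = nb x + nb y := by
  rw [nb, nb, nb, pos_mul hx hy, bt_beq]
  ring

theorem nb_add_eq (x y : ℝ) : bt (pos x) + bt (pos y) = nb x + nb y := by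
  rw [nb, nb]
  linear_combination -one_one

theorem pos_of_nb {x y : ℝ} (hx : x ≠ 0) (hy : y ≠ 0) (h : 1 + nb x + nb y ≠ 0) : 0 < x * y := by
  rw [← pos_iff, pos_mul hx hy]
  by_contra hc
  apply h
  rw [nb, nb]
  revert hc
  generalize pos x = a
  generalize pos y = b
  revert a b
  decide

/-- The affine chart `x₀ ≠ 0` of the projective plane. -/
noncomputable def chart (u : Fin 3 → ℝ) : ℝ × ℝ := (u 1 / u 0, u 2 / u 0)

theorem ori_chart {a b c : Fin 3 → ℝ} (ha : a 0 ≠ 0) (hb : b 0 ≠ 0) (hc : c 0 ≠ 0) :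
    det3 a b c = ori (LinearMap.fst ℝ ℝ ℝ) (LinearMap.snd ℝ ℝ ℝ) (chart a) (chart b) (chart c) *
      (a 0 * b 0 * c 0) := by
  simp only [det3, ori, chart, LinearMap.fst_apply, LinearMap.snd_apply]
  field_simp
  ring

theorem ori_chart_ne {a b c : Fin 3 → ℝ} (ha : a 0 ≠ 0) (hb : b 0 ≠ 0) (hc : c 0 ≠ 0)
    (h : det3 a b c ≠ 0) :
    ori (LinearMap.fst ℝ ℝ ℝ) (LinearMap.snd ℝ ℝ ℝ) (chart a) (chart b) (chart c) ≠ 0 := by
  rw [ori_chart ha hb hc] at h
  exact left_ne_zero_of_mul h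

theorem nb_chart {a b c : Fin 3 → ℝ} (ha : a 0 ≠ 0) (hb : b 0 ≠ 0) (hc : c 0 ≠ 0)
    (h : det3 a b c ≠ 0) :
    nb (ori (LinearMap.fst ℝ ℝ ℝ) (LinearMap.snd ℝ ℝ ℝ) (chart a) (chart b) (chart c)) =
      nb (det3 a b c) + nb (a 0) + nb (b 0) + nb (c 0) := by
  have h1 := ori_chart_ne ha hb hc h
  rw [ori_chart ha hb hc, nb_mul h1 (mul_ne_zero (mul_ne_zero ha hb) hc),
    nb_mul (mul_ne_zero ha hb) hc, nb_mul ha hb]
  have e1 := two_zero (nb (a 0))
  have e2 := two_zero (nb (b 0))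
  have e3 := two_zero (nb (c 0))
  linear_combination -e1 - e2 - e3

/-- The set where an analytic function does not vanish is dense. -/
theorem dense_ne {X : Type} [NormedAddCommGroup X] [NormedSpace ℝ X] (F : X → ℝ)
    (hF : AnalyticOnNhd ℝ F Set.univ) (x₀ : X) (h₀ : F x₀ ≠ 0) : Dense {x | F x ≠ 0} := by
  rw [dense_iff_inter_open]
  rintro U hU ⟨y, hy⟩
  by_contra hcon
  have h1 : F =ᶠ[nhds y] fun _ => 0 := by
    filter_upwards [hU.mem_nhds hy] with z hz
    by_contra h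
    exact hcon ⟨z, hz, h⟩
  have h2 := hF.eq_of_eventuallyEq analyticOnNhd_const h1
  exact h₀ (congrFun h2 x₀)

theorem exists_generic {κ J : Type} [Fintype κ] [Countable J] (F : J → (κ → ℝ) → ℝ)
    (hF : ∀ j, AnalyticOnNhd ℝ (F j) Set.univ) (h₀ : ∀ j, ∃ x, F j x ≠ 0) (U : Set (κ → ℝ))
    (hU : IsOpen U) (c : κ → ℝ) (hc : c ∈ U) : ∃ x ∈ U, ∀ j, F j x ≠ 0 := by
  have hd : Dense (⋂ j, {x | F j x ≠ 0}) := by
    refine dense_iInter_of_isOpen (fun j => ?_) (fun j => ?_)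
    · exact isOpen_ne_fun (hF j).continuous continuous_const
    · obtain ⟨x, hx⟩ := h₀ j
      exact dense_ne _ (hF j) x hx
  obtain ⟨x, hx, hx'⟩ := hd.inter_open_nonempty U hU ⟨c, hc⟩
  exact ⟨x, hx, fun j => Set.mem_iInter.1 hx' j⟩

/-- Vectors whose coordinates depend analytically on a parameter. -/
def An {X : Type} [NormedAddCommGroup X] [NormedSpace ℝ X] (V : X → Fin 3 → ℝ) : Prop :=
  ∀ l, AnalyticOnNhd ℝ (fun x => V x l) Set.univ

theorem An.det3 {X : Type} [NormedAddCommGroup X] [NormedSpace ℝ X] {U V W : X → Fin 3 → ℝ}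
    (hU : An U) (hV : An V) (hW : An W) :
    AnalyticOnNhd ℝ (fun x => det3 (U x) (V x) (W x)) Set.univ := by
  unfold Vale.Agent.P305.H529.det3
  exact (((hU 0).mul (((hV 1).mul (hW 2)).sub ((hV 2).mul (hW 1)))).sub
    ((hU 1).mul (((hV 0).mul (hW 2)).sub ((hV 2).mul (hW 0))))).add
    ((hU 2).mul (((hV 0).mul (hW 1)).sub ((hV 1).mul (hW 0))))

theorem An.const {X : Type} [NormedAddCommGroup X] [NormedSpace ℝ X] (a : Fin 3 → ℝ) :
    An (fun _ : X => a) := fun _ => analyticOnNhd_const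

theorem an_coord {κ : Type} [Fintype κ] (k : κ) :
    AnalyticOnNhd ℝ (fun x : κ → ℝ => x k) Set.univ :=
  (ContinuousLinearMap.proj (R := ℝ) (φ := fun _ : κ => ℝ) k).analyticOnNhd _

theorem an_id : An (fun x : Fin 3 → ℝ => x) := fun l => an_coord l

/-- Two closed polygons of odd length in the projective plane cross. The polygons have the vertices
`u i`, `v j`, and the sides are the arcs between `-u i` and `u (i + 1)`, and between `-v j` and
`v (j + 1)`. -/
theorem proj_parity {s t : ℕ} (u v : ℕ → Fin 3 → ℝ) (hu : u s = u 0) (hv : v t = v 0)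
    (hu0 : ∀ i, u i 0 ≠ 0) (hv0 : ∀ j, v j 0 ≠ 0)
    (huv : ∀ i j, det3 (u i) (u (i + 1)) (v j) ≠ 0)
    (hvu : ∀ i j, det3 (v j) (v (j + 1)) (u i) ≠ 0) (hs : Odd s) (ht : Odd t) :
    ∃ i < s, ∃ j < t,
      0 < det3 (u i) (u (i + 1)) (v j) * det3 (u i) (u (i + 1)) (v (j + 1)) ∧
      0 < det3 (v j) (v (j + 1)) (u i) * det3 (v j) (v (j + 1)) (u (i + 1)) := by
  obtain ⟨z, -, hz⟩ := exists_generic (κ := Fin 3) (J := ℕ ⊕ ℕ ⊕ (ℕ × ℕ) ⊕ Unit)
    (Sum.elim (fun i x => det3 x (u i) (u (i + 1)))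
      (Sum.elim (fun j x => det3 (v j) (v (j + 1)) x)
        (Sum.elim (fun k x => det3 x (u k.1) (v k.2)) (fun _ x => x 0)))) (by
      rintro (i | j | k | _)
      · exact an_id.det3 (An.const _) (An.const _)
      · exact (An.const _).det3 (An.const _) an_id
      · exact an_id.det3 (An.const _) (An.const _)
      · exact an_id 0) (by
      rintro (i | j | k | _)
      · refine ⟨v 0, ?_⟩
        have := huv i 0
        simp only [Sum.elim_inl]
        rwa [show det3 (v 0) (u i) (u (i + 1)) = det3 (u i) (u (i + 1)) (v 0) by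
          simp only [det3]; ring]
      · exact ⟨u 0, hvu 0 j⟩
      · refine ⟨u (k.1 + 1), ?_⟩
        have := huv k.1 k.2
        simp only [Sum.elim_inl, Sum.elim_inr]
        rw [show det3 (u (k.1 + 1)) (u k.1) (v k.2) = -det3 (u k.1) (u (k.1 + 1)) (v k.2) by
          simp only [det3]; ring]
        exact neg_ne_zero.2 this
      · exact ⟨u 0, hu0 0⟩) Set.univ isOpen_univ 0 (Set.mem_univ _)
  have z1 : ∀ i, det3 z (u i) (u (i + 1)) ≠ 0 := fun i => hz (Sum.inl i)
  have z2 : ∀ j, det3 (v j) (v (j + 1)) z ≠ 0 := fun j => hz (Sum.inr (Sum.inl j))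
  have z3 : ∀ i j, det3 z (u i) (v j) ≠ 0 := fun i j => hz (Sum.inr (Sum.inr (Sum.inl (i, j))))
  have z0 : z 0 ≠ 0 := hz (Sum.inr (Sum.inr (Sum.inr ())))
  have hev := cross_even (LinearMap.fst ℝ ℝ ℝ) (LinearMap.snd ℝ ℝ ℝ) (s := s) (t := t)
    (fun i => chart (u i)) (fun j => chart (v j)) (by simp only [hu]) (by simp only [hv]) (chart z)
    (fun i => ori_chart_ne z0 (hu0 _) (hu0 _) (z1 i))
    (fun j => ori_chart_ne (hv0 _) (hv0 _) z0 (z2 j))
    (fun i j => ori_chart_ne z0 (hu0 _) (hv0 _) (z3 i j))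
    (fun i j => ori_chart_ne (hu0 _) (hu0 _) (hv0 _) (huv i j))
    (fun i j => ori_chart_ne (hv0 _) (hv0 _) (hu0 _) (hvu i j))
  set β : ℕ → ℕ → ZMod 2 := fun i j =>
    bt (sg (LinearMap.fst ℝ ℝ ℝ) (LinearMap.snd ℝ ℝ ℝ) (chart (u i)) (chart (u (i + 1)))
      (chart (v j))) + bt (sg (LinearMap.fst ℝ ℝ ℝ) (LinearMap.snd ℝ ℝ ℝ) (chart (u i))
      (chart (u (i + 1))) (chart (v (j + 1)))) with hβ
  set α : ℕ → ℕ → ZMod 2 := fun i j =>
    bt (sg (LinearMap.fst ℝ ℝ ℝ) (LinearMap.snd ℝ ℝ ℝ) (chart (v j)) (chart (v (j + 1)))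
      (chart (u i))) + bt (sg (LinearMap.fst ℝ ℝ ℝ) (LinearMap.snd ℝ ℝ ℝ) (chart (v j))
      (chart (v (j + 1))) (chart (u (i + 1)))) with hα
  have eβ : ∀ i j, β i j = nb (det3 (u i) (u (i + 1)) (v j)) +
      nb (det3 (u i) (u (i + 1)) (v (j + 1))) + (nb (v j 0) + nb (v (j + 1) 0)) := by
    intro i j
    simp only [hβ, sg]
    rw [nb_add_eq, nb_chart (hu0 _) (hu0 _) (hv0 _) (huv i j),
      nb_chart (hu0 _) (hu0 _) (hv0 _) (huv i (j + 1))]
    have e1 := two_zero (nb (u i 0))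
    have e2 := two_zero (nb (u (i + 1) 0))
    linear_combination e1 + e2
  have eα : ∀ i j, α i j = nb (det3 (v j) (v (j + 1)) (u i)) +
      nb (det3 (v j) (v (j + 1)) (u (i + 1))) + (nb (u i 0) + nb (u (i + 1) 0)) := by
    intro i j
    simp only [hα, sg]
    rw [nb_add_eq, nb_chart (hv0 _) (hv0 _) (hu0 _) (hvu i j),
      nb_chart (hv0 _) (hv0 _) (hu0 _) (hvu (i + 1) j)]
    have e1 := two_zero (nb (v j 0))
    have e2 := two_zero (nb (v (j + 1) 0))
    linear_combination e1 + e2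
  set lm : ℕ → ZMod 2 := fun j => 1 + (nb (v j 0) + nb (v (j + 1) 0)) with hlm
  set kp : ℕ → ZMod 2 := fun i => 1 + (nb (u i 0) + nb (u (i + 1) 0)) with hkp
  by_contra hcon
  push Not at hcon
  have h0 : ∀ i ∈ range s, ∀ j ∈ range t, (0 : ZMod 2) =
      β i j * α i j + β i j * kp i + lm j * α i j + lm j * kp i := by
    intro i hi j hj
    rw [mem_range] at hi hj
    have h1 : (β i j + lm j) * (α i j + kp i) = 0 := by
      by_contra hne
      have h2 := left_ne_zero_of_mul hne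
      have h3 := right_ne_zero_of_mul hne
      refine absurd (hcon i hi j hj (pos_of_nb (huv i j) (huv i (j + 1)) fun h => h2 ?_)) ?_
      · rw [eβ, hlm]
        have e1 := two_zero (nb (v j 0))
        have e2 := two_zero (nb (v (j + 1) 0))
        linear_combination h + e1 + e2
      · rw [not_le]
        refine pos_of_nb (hvu i j) (hvu (i + 1) j) fun h => h3 ?_
        rw [eα, hkp]
        have e1 := two_zero (nb (u i 0))
        have e2 := two_zero (nb (u (i + 1) 0))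
        linear_combination h + e1 + e2
    rw [← h1]; ring
  have hsum : (0 : ZMod 2) = ∑ i ∈ range s, ∑ j ∈ range t,
      (β i j * α i j + β i j * kp i + lm j * α i j + lm j * kp i) := by
    rw [← sum_congr rfl fun i hi => sum_congr rfl fun j hj => h0 i hi j hj]
    simp
  have Sβ : ∀ i, ∑ j ∈ range t, β i j = 0 := fun i =>
    tele_closed (fun j => bt (sg (LinearMap.fst ℝ ℝ ℝ) (LinearMap.snd ℝ ℝ ℝ) (chart (u i))
      (chart (u (i + 1))) (chart (v j)))) t (by simp only [hv])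
  have Sα : ∀ j, ∑ i ∈ range s, α i j = 0 := fun j =>
    tele_closed (fun i => bt (sg (LinearMap.fst ℝ ℝ ℝ) (LinearMap.snd ℝ ℝ ℝ) (chart (v j))
      (chart (v (j + 1))) (chart (u i)))) s (by simp only [hu])
  have Slm : ∑ j ∈ range t, lm j = t := by
    rw [sum_add_distrib, tele_closed (fun j => nb (v j 0)) t (by simp only [hv])]
    simp
  have Skp : ∑ i ∈ range s, kp i = s := by
    rw [sum_add_distrib, tele_closed (fun i => nb (u i 0)) s (by simp only [hu])]
    simp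
  simp only [sum_add_distrib] at hsum
  rw [hev] at hsum
  have T2 : ∑ i ∈ range s, ∑ j ∈ range t, β i j * kp i = 0 := by
    refine sum_eq_zero fun i _ => ?_
    rw [← sum_mul, Sβ, zero_mul]
  have T3 : ∑ i ∈ range s, ∑ j ∈ range t, lm j * α i j = 0 := by
    rw [sum_comm]
    refine sum_eq_zero fun j _ => ?_
    rw [← mul_sum, Sα, mul_zero]
  have T4 : ∑ i ∈ range s, ∑ j ∈ range t, lm j * kp i = t * s := by
    simp only [← sum_mul]
    rw [Slm, ← mul_sum, Skp]
  rw [T2, T3, T4, zero_add, zero_add, zero_add] at hsum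
  have h3 : Odd (t * s) := ht.mul hs
  have h4 : ((t * s : ℕ) : ZMod 2) = 0 := by rw [hsum]; push_cast; rfl
  rw [ZMod.natCast_eq_zero_iff] at h4
  exact (Nat.not_even_iff_odd.2 h3) (even_iff_two_dvd.2 h4)

end Vale.Agent.P305.H529
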