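import Vale.Agent.P305.H529.Ball.Defs
import Vale.Agent.P305.H529.Ball.Core
import Vale.Agent.P305.H529.Ball.Proj
import Vale.Agent.P305.H529.Pair

/-! The complement of a unit ball graph of three-dimensional space has no two odd cycles which are
vertex-disjoint and non-adjacent. -/

set_option autoImplicit false

namespace Vale.Agent.P305.H529

open Finset
open scoped InnerProductSpace

/-- The squared distance. -/
def d2 (p q : Fin 3 → ℝ) : ℝ := (p 0 - q 0) ^ 2 + (p 1 - q 1) ^ 2 + (p 2 - q 2) ^ 2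

theorem dist_sq (p q : EuclideanSpace ℝ (Fin 3)) : dist p q ^ 2 = d2 p q := by
  rw [EuclideanSpace.dist_eq, Real.sq_sqrt (by positivity), Fin.sum_univ_three, d2]
  simp only [Real.dist_eq, sq_abs]

theorem inner_e (a b : Fin 3 → ℝ) :
    ⟪(WithLp.toLp 2 a : EuclideanSpace ℝ (Fin 3)), WithLp.toLp 2 b⟫_ℝ =
      a 0 * b 0 + a 1 * b 1 + a 2 * b 2 := by
  rw [PiLp.inner_apply, Fin.sum_univ_three]
  simp only [RCLike.inner_apply, conj_trivial]
  ring

theorem periodise {V : Type} (R : V → V → Prop) {s : ℕ} (hs : 0 < s) (a : ℕ → V)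
    (has : a s = a 0) (h : ∀ i, i < s → R (a i) (a (i + 1))) (i : ℕ) :
    R (a (i % s)) (a ((i + 1) % s)) := by
  have h1 := Nat.mod_lt i hs
  have h2 := h _ h1
  rw [← Nat.mod_add_mod]
  rcases Nat.lt_or_ge (i % s + 1) s with h3 | h3
  · rwa [Nat.mod_eq_of_lt h3]
  · have h4 : i % s + 1 = s := by omega
    rw [h4, Nat.mod_self, ← has]
    rwa [h4] at h2

theorem witness {ι : Type} (x0 x1 x2 y0 y1 : ι) (h01 : x0 ≠ x1) (h12 : x1 ≠ x2) (h02 : x0 ≠ x2)
    (hy : y0 ≠ y1) (a1 : x0 ≠ y1) (a2 : x1 ≠ y1) (a3 : x2 ≠ y1) (b0 : x0 ≠ y0) (b2 : x2 ≠ y0) :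
    ∃ f : ι × Fin 3 → ℝ, det3 (fun l => f (x1, l) - f (x0, l)) (fun l => f (x2, l) - f (x1, l))
      (fun l => f (y1, l) - f (y0, l)) ≠ 0 := by
  classical
  refine ⟨fun k => if k.2 = 0 then (if k.1 = x0 then -1 else 0) else if k.2 = 1 then
    (if k.1 = x2 then 1 else 0) else (if k.1 = y1 then 1 else 0), ?_⟩
  simp [det3, h01.symm, h12, h02, h02.symm, hy, a1, a1.symm, a2, a3, a3.symm, b0.symm,
    b2.symm]

theorem core_points (X0 X1 X2 Y0 Y1 Y2 : Fin 3 → ℝ) (ρ : ℝ) (f1 : ρ < d2 X0 X1) (f2 : ρ < d2 X1 X2)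
    (g1 : ρ < d2 Y0 Y1) (g2 : ρ < d2 Y1 Y2) (n00 : d2 X0 Y0 < ρ) (n01 : d2 X0 Y1 < ρ)
    (n02 : d2 X0 Y2 < ρ) (n10 : d2 X1 Y0 < ρ) (n11 : d2 X1 Y1 < ρ) (n12 : d2 X1 Y2 < ρ)
    (n20 : d2 X2 Y0 < ρ) (n21 : d2 X2 Y1 < ρ) (n22 : d2 X2 Y2 < ρ)
    (h1 : 0 < det3 (fun l => X1 l - X0 l) (fun l => X2 l - X1 l) (fun l => Y1 l - Y0 l) *
      det3 (fun l => X1 l - X0 l) (fun l => X2 l - X1 l) (fun l => Y2 l - Y1 l))
    (h2 : 0 < det3 (fun l => Y1 l - Y0 l) (fun l => Y2 l - Y1 l) (fun l => X1 l - X0 l) *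
      det3 (fun l => Y1 l - Y0 l) (fun l => Y2 l - Y1 l) (fun l => X2 l - X1 l)) : False := by
  obtain ⟨d, hd⟩ : ∃ d, d = det3 (fun l => X1 l - X0 l) (fun l => X2 l - X1 l)
    (fun l => Y1 l - Y0 l) := ⟨_, rfl⟩
  obtain ⟨d', hd'⟩ : ∃ d', d' = det3 (fun l => X1 l - X0 l) (fun l => X2 l - X1 l)
    (fun l => Y2 l - Y1 l) := ⟨_, rfl⟩
  obtain ⟨e, he⟩ : ∃ e, e = det3 (fun l => Y1 l - Y0 l) (fun l => Y2 l - Y1 l)
    (fun l => X1 l - X0 l) := ⟨_, rfl⟩
  obtain ⟨e', he'⟩ : ∃ e', e' = det3 (fun l => Y1 l - Y0 l) (fun l => Y2 l - Y1 l)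
    (fun l => X2 l - X1 l) := ⟨_, rfl⟩
  rw [← hd, ← hd'] at h1
  rw [← he, ← he'] at h2
  have wts : ∀ {a b : ℝ}, 0 < a * b → a + b ≠ 0 ∧ 0 ≤ a / (a + b) ∧ 0 ≤ b / (a + b) ∧
      a / (a + b) + b / (a + b) = 1 := by
    intro a b hab
    have hne : a + b ≠ 0 := by
      intro h
      have : b = -a := by linarith
      rw [this] at hab
      nlinarith [sq_nonneg a]
    have h3 : 0 < (a + b) ^ 2 := by positivity
    refine ⟨hne, ?_, ?_, ?_⟩
    · have : a / (a + b) = (a ^ 2 + a * b) / (a + b) ^ 2 := by field_simp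
      rw [this]
      exact div_nonneg (by nlinarith [sq_nonneg a]) h3.le
    · have : b / (a + b) = (b ^ 2 + a * b) / (a + b) ^ 2 := by field_simp; ring
      rw [this]
      exact div_nonneg (by nlinarith [sq_nonneg b]) h3.le
    · field_simp
  obtain ⟨we, we1, we2, we3⟩ := wts (a := e') (b := e) (by rwa [mul_comm])
  obtain ⟨wd, wd1, wd2, wd3⟩ := wts (a := d') (b := d) (by rwa [mul_comm])
  refine core_norm (F := EuclideanSpace ℝ (Fin 3))
    (WithLp.toLp 2 fun l => X1 l - Y1 l) (WithLp.toLp 2 fun l => X0 l - X1 l)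
    (WithLp.toLp 2 fun l => X2 l - X1 l) (WithLp.toLp 2 fun l => Y0 l - Y1 l)
    (WithLp.toLp 2 fun l => Y2 l - Y1 l) (e' / (e' + e)) (e / (e' + e)) (d' / (d' + d))
    (d / (d' + d)) (-((d' + d) / (e' + e))) ρ we1 we2 we3 wd1 wd2 wd3 ?_ ?_ ?_ ?_ ?_ ?_ ?_ ?_ ?_ ?_
    ?_ ?_ ?_ ?_
  · rw [← WithLp.toLp_smul, ← WithLp.toLp_smul, ← WithLp.toLp_smul, ← WithLp.toLp_smul,
      ← WithLp.toLp_add, ← WithLp.toLp_add, ← WithLp.toLp_smul]
    congr 1
    ext l
    simp only [Pi.add_apply, Pi.smul_apply, smul_eq_mul]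
    field_simp
    rw [hd, hd', he, he']
    simp only [det3]
    fin_cases l <;> simp <;> ring
  all_goals
    simp only [← WithLp.toLp_add, ← WithLp.toLp_sub, inner_e, Pi.add_apply, Pi.sub_apply]
  · refine f1.trans_eq ?_; simp only [d2]; ring
  · refine f2.trans_eq ?_; simp only [d2]; ring
  · refine g1.trans_eq ?_; simp only [d2]; ring
  · refine g2.trans_eq ?_; simp only [d2]; ring
  · refine lt_of_eq_of_lt ?_ n11; simp only [d2]; ring
  · refine lt_of_eq_of_lt ?_ n01; simp only [d2]; ring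
  · refine lt_of_eq_of_lt ?_ n21; simp only [d2]; ring
  · refine lt_of_eq_of_lt ?_ n10; simp only [d2]; ring
  · refine lt_of_eq_of_lt ?_ n12; simp only [d2]; ring
  · refine lt_of_eq_of_lt ?_ n00; simp only [d2]; ring
  · refine lt_of_eq_of_lt ?_ n02; simp only [d2]; ring
  · refine lt_of_eq_of_lt ?_ n20; simp only [d2]; ring
  · refine lt_of_eq_of_lt ?_ n22; simp only [d2]; ring

theorem mod_ne {s k : ℕ} (hk : 0 < k) (hks : k < s) (i : ℕ) : i % s ≠ (i + k) % s := by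
  intro h
  have h1 : i + 0 ≡ i + k [MOD s] := h
  have h2 := (Nat.ModEq.add_left_cancel' i h1).symm
  have h3 := (Nat.modEq_zero_iff_dvd).1 h2
  exact absurd (Nat.le_of_dvd hk h3) (by omega)

theorem coball_pair {V : Type} (G : SimpleGraph V) (hG : IsCoBall G) (S T : Set V)
    (hST : ∀ u ∈ S, ∀ v ∈ T, u ≠ v ∧ ¬ G.Adj u v) (hS : ¬ (G.induce S).IsBipartite)
    (hT : ¬ (G.induce T).IsBipartite) : False := by
  obtain ⟨c, hadj⟩ := hG
  obtain ⟨s, a, hs, has, haS, haadj⟩ := exists_odd_walk G S hS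
  obtain ⟨t, b, ht, hbt, hbT, hbadj⟩ := exists_odd_walk G T hT
  have far : ∀ u v, G.Adj u v → 2 < dist (c u) (c v) := fun u v h => by
    have := (disjoint_closedBall_closedBall_iff zero_le_one zero_le_one).1 ((hadj u v h.ne).1 h)
    linarith
  have near : ∀ u v, u ≠ v → ¬ G.Adj u v → dist (c u) (c v) ≤ 2 := by
    intro u v huv h
    by_contra hn
    exact h ((hadj u v huv).2 ((disjoint_closedBall_closedBall_iff zero_le_one zero_le_one).2
      (by linarith [not_le.1 hn])))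
  have three_le : ∀ {s : ℕ} {a : ℕ → V}, Odd s → a s = a 0 →
      (∀ i, i < s → G.Adj (a i) (a (i + 1))) → 3 ≤ s := by
    intro s a hs has h
    by_contra hlt
    obtain ⟨k, hk⟩ := hs
    have h1 : s = 1 := by omega
    subst h1
    exact (h 0 (by omega)).ne has.symm
  have hs3 := three_le hs has haadj
  have ht3 := three_le ht hbt hbadj
  have hs0 : 0 < s := by omega
  have ht0 : 0 < t := by omega
  have fa := periodise (fun u v => 2 < dist (c u) (c v)) hs0 a has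
    (fun i hi => far _ _ (haadj i hi))
  have fb := periodise (fun u v => 2 < dist (c u) (c v)) ht0 b hbt
    (fun i hi => far _ _ (hbadj i hi))
  have nab : ∀ i j, dist (c (a i)) (c (b j)) ≤ 2 := fun i j =>
    near _ _ (hST _ (haS i) _ (hbT j)).1 (hST _ (haS i) _ (hbT j)).2
  obtain ⟨ρ, hρ, ρa, ρb⟩ : ∃ ρ : ℝ, 2 < ρ ∧
      (∀ i ∈ range s, ρ < dist (c (a (i % s))) (c (a ((i + 1) % s)))) ∧
      ∀ j ∈ range t, ρ < dist (c (b (j % t))) (c (b ((j + 1) % t))) := by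
    have h1 : ∀ᶠ ρ in nhdsWithin (2 : ℝ) (Set.Ioi 2), 2 < ρ ∧
        (∀ i ∈ range s, ρ < dist (c (a (i % s))) (c (a ((i + 1) % s)))) ∧
        ∀ j ∈ range t, ρ < dist (c (b (j % t))) (c (b ((j + 1) % t))) := by
      filter_upwards [self_mem_nhdsWithin,
        (Filter.eventually_all_finset (range s)).2
          fun i _ => mem_nhdsWithin_of_mem_nhds (Iio_mem_nhds (fa i)),
        (Filter.eventually_all_finset (range t)).2
          fun j _ => mem_nhdsWithin_of_mem_nhds (Iio_mem_nhds (fb j))] with ρ h1 h2 h3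
      exact ⟨h1, h2, h3⟩
    exact h1.exists
  obtain ⟨x, hx⟩ : ∃ x : ℕ → Fin s ⊕ Fin t, x = fun i => Sum.inl ⟨i % s, Nat.mod_lt _ hs0⟩ :=
    ⟨_, rfl⟩
  obtain ⟨y, hy⟩ : ∃ y : ℕ → Fin s ⊕ Fin t, y = fun j => Sum.inr ⟨j % t, Nat.mod_lt _ ht0⟩ :=
    ⟨_, rfl⟩
  have x1 : ∀ i, x i ≠ x (i + 1) := by
    intro i h
    rw [hx] at h
    exact mod_ne one_pos (by omega) i (congrArg Fin.val (Sum.inl.inj h))
  have x2 : ∀ i, x i ≠ x (i + 2) := by
    intro i h
    rw [hx] at h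
    exact mod_ne two_pos (by omega) i (congrArg Fin.val (Sum.inl.inj h))
  have y1 : ∀ i, y i ≠ y (i + 1) := by
    intro i h
    rw [hy] at h
    exact mod_ne one_pos (by omega) i (congrArg Fin.val (Sum.inr.inj h))
  have y2 : ∀ i, y i ≠ y (i + 2) := by
    intro i h
    rw [hy] at h
    exact mod_ne two_pos (by omega) i (congrArg Fin.val (Sum.inr.inj h))
  have xy : ∀ i j, x i ≠ y j := by
    intro i j h
    rw [hx, hy] at h
    exact Sum.inl_ne_inr h
  have xm : ∀ i, x (i % s) = x i ∧ x (i % s + 1) = x (i + 1) := by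
    intro i
    rw [hx]
    simp only [Nat.mod_mod, Nat.mod_add_mod, and_self]
  have ym : ∀ i, y (i % t) = y i ∧ y (i % t + 1) = y (i + 1) := by
    intro i
    rw [hy]
    simp only [Nat.mod_mod, Nat.mod_add_mod, and_self]
  have xs : x s = x 0 ∧ x (s + 1) = x 1 := by
    rw [hx]
    simp only [Nat.mod_self, Nat.zero_mod, Nat.add_mod_left, and_self]
  have yt : y t = y 0 ∧ y (t + 1) = y 1 := by
    rw [hy]
    simp only [Nat.mod_self, Nat.zero_mod, Nat.add_mod_left, and_self]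
  let U : Set ((Fin s ⊕ Fin t) × Fin 3 → ℝ) := {f |
    (∀ i : Fin s, ρ ^ 2 < d2 (fun l => f (x i, l)) (fun l => f (x (i + 1), l))) ∧
    (∀ j : Fin t, ρ ^ 2 < d2 (fun l => f (y j, l)) (fun l => f (y (j + 1), l))) ∧
    ∀ (i : Fin s) (j : Fin t), d2 (fun l => f (x i, l)) (fun l => f (y j, l)) < ρ ^ 2}
  have hU : IsOpen U := by
    simp only [U, Set.ofPred_and, Set.ofPred_forall]
    refine (isOpen_iInter_of_finite fun i => ?_).inter
      ((isOpen_iInter_of_finite fun i => ?_).inter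
        (isOpen_iInter_of_finite fun i => isOpen_iInter_of_finite fun j => ?_))
    · exact isOpen_lt continuous_const (by unfold d2; fun_prop)
    · exact isOpen_lt continuous_const (by unfold d2; fun_prop)
    · exact isOpen_lt (by unfold d2; fun_prop) continuous_const
  let f₀ : (Fin s ⊕ Fin t) × Fin 3 → ℝ := fun k =>
    Sum.elim (fun i : Fin s => c (a i) k.2) (fun j : Fin t => c (b j) k.2) k.1
  have hf₀ : f₀ ∈ U := by
    refine ⟨fun i => ?_, fun j => ?_, fun i j => ?_⟩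
    · have h1 := ρa i (mem_range.2 i.2)
      have h2 : ρ ^ 2 < dist (c (a ((i : ℕ) % s))) (c (a (((i : ℕ) + 1) % s))) ^ 2 :=
        pow_lt_pow_left₀ h1 (by linarith) two_ne_zero
      rw [dist_sq] at h2
      rw [hx]
      exact h2
    · have h1 := ρb j (mem_range.2 j.2)
      have h2 : ρ ^ 2 < dist (c (b ((j : ℕ) % t))) (c (b (((j : ℕ) + 1) % t))) ^ 2 :=
        pow_lt_pow_left₀ h1 (by linarith) two_ne_zero
      rw [dist_sq] at h2
      rw [hy]
      exact h2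
    · have h2 : dist (c (a ((i : ℕ) % s))) (c (b ((j : ℕ) % t))) ^ 2 < ρ ^ 2 :=
        pow_lt_pow_left₀ ((nab _ _).trans_lt hρ) dist_nonneg two_ne_zero
      rw [dist_sq] at h2
      rw [hx, hy]
      exact h2
  have anf : ∀ k k' : Fin s ⊕ Fin t, An (fun f : (Fin s ⊕ Fin t) × Fin 3 → ℝ =>
      (fun l => f (k, l) - f (k', l) : Fin 3 → ℝ)) := fun k k' l => (an_coord _).sub (an_coord _)
  obtain ⟨f, hfU, hf⟩ := exists_generic (J := ℕ ⊕ ℕ ⊕ (ℕ × ℕ) ⊕ (ℕ × ℕ))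
    (Sum.elim (fun i f => f (x (i + 1), 0) - f (x i, 0))
      (Sum.elim (fun j f => f (y (j + 1), 0) - f (y j, 0))
        (Sum.elim (fun k f => det3 (fun l => f (x (k.1 + 1), l) - f (x k.1, l))
          (fun l => f (x (k.1 + 2), l) - f (x (k.1 + 1), l))
          (fun l => f (y (k.2 + 1), l) - f (y k.2, l)))
          (fun k f => det3 (fun l => f (y (k.2 + 1), l) - f (y k.2, l))
          (fun l => f (y (k.2 + 2), l) - f (y (k.2 + 1), l))
          (fun l => f (x (k.1 + 1), l) - f (x k.1, l)))))) (by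
      rintro (i | j | k | k)
      · exact anf _ _ 0
      · exact anf _ _ 0
      · exact (anf _ _).det3 (anf _ _) (anf _ _)
      · exact (anf _ _).det3 (anf _ _) (anf _ _)) (by
      classical
      rintro (i | j | k | k)
      · exact ⟨fun k => if k.1 = x (i + 1) then 1 else 0, by simp [x1]⟩
      · exact ⟨fun k => if k.1 = y (j + 1) then 1 else 0, by simp [y1]⟩
      · exact witness _ _ _ _ _ (x1 _) (x1 _) (x2 _) (y1 _) (xy _ _) (xy _ _) (xy _ _) (xy _ _)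
          (xy _ _)
      · exact witness _ _ _ _ _ (y1 _) (y1 _) (y2 _) (x1 _) (xy _ _).symm (xy _ _).symm
          (xy _ _).symm (xy _ _).symm (xy _ _).symm) U hU f₀ hf₀
  obtain ⟨hU1, hU2, hU3⟩ := hfU
  have F1 : ∀ i, ρ ^ 2 < d2 (fun l => f (x i, l)) (fun l => f (x (i + 1), l)) := by
    intro i
    have := hU1 ⟨i % s, Nat.mod_lt _ hs0⟩
    rwa [(xm i).1, (xm i).2] at this
  have F2 : ∀ i, ρ ^ 2 < d2 (fun l => f (y i, l)) (fun l => f (y (i + 1), l)) := by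
    intro i
    have := hU2 ⟨i % t, Nat.mod_lt _ ht0⟩
    rwa [(ym i).1, (ym i).2] at this
  have F3 : ∀ i j, d2 (fun l => f (x i, l)) (fun l => f (y j, l)) < ρ ^ 2 := by
    intro i j
    have := hU3 ⟨i % s, Nat.mod_lt _ hs0⟩ ⟨j % t, Nat.mod_lt _ ht0⟩
    rwa [(xm i).1, (ym j).1] at this
  obtain ⟨i, -, j, -, h1, h2⟩ := proj_parity (s := s) (t := t)
    (fun i l => f (x (i + 1), l) - f (x i, l)) (fun j l => f (y (j + 1), l) - f (y j, l))
    (by simp only [xs.1, xs.2]) (by simp only [yt.1, yt.2])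
    (fun i => hf (Sum.inl i)) (fun j => hf (Sum.inr (Sum.inl j)))
    (fun i j => hf (Sum.inr (Sum.inr (Sum.inl (i, j)))))
    (fun i j => hf (Sum.inr (Sum.inr (Sum.inr (i, j))))) hs ht
  exact core_points _ _ _ _ _ _ (ρ ^ 2) (F1 i) (F1 (i + 1)) (F2 j) (F2 (j + 1)) (F3 _ _) (F3 _ _)
    (F3 _ _) (F3 _ _) (F3 _ _) (F3 _ _) (F3 _ _) (F3 _ _) (F3 _ _) h1 h2

end Vale.Agent.P305.H529
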