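import Vale.Agent.P305.H794.CompBound
import Vale.Agent.P305.H287.InducedMatching
import Vale.Agent.P305.H529.Ball.Arc
import Vale.Agent.P305.H529.Ball.Box
import Vale.Agent.P305.H529.Ball.Pair3

/-! The packing number of induced subgraphs, and the surplus after the deletion of a vertex set. -/

set_option autoImplicit false

namespace Vale.Agent.P305.H529

open Vale.Agent.P305.H287

theorem bip_restrict {V : Type} (G : SimpleGraph V) (U S : Set V) (h : S ⊆ U)
    (hb : ((G.induce U).induce {v : U | (v : V) ∈ S}).IsBipartite) :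
    (G.induce S).IsBipartite := by
  obtain ⟨col⟩ := hb
  exact ⟨SimpleGraph.Coloring.mk (fun v => col ⟨⟨v.1, h v.2⟩, v.2⟩)
    (fun {u v} huv => col.valid (by simpa using huv))⟩

theorem bip_mono {V : Type} (G : SimpleGraph V) (U S : Set V) (h : S ⊆ U)
    (hb : (G.induce U).IsBipartite) : (G.induce S).IsBipartite := by
  obtain ⟨col⟩ := hb
  exact ⟨SimpleGraph.Coloring.mk (fun v => col ⟨v.1, h v.2⟩)
    (fun {u v} huv => col.valid (by simpa using huv))⟩

theorem in_bip {n : ℕ} (G : SimpleGraph (Fin n)) (U : Set (Fin n))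
    (hU : (G.induce U).IsBipartite) : oddPackingIn G U = 0 := by
  obtain ⟨S, hSU, hS⟩ := exists_oddPackingIn G U
  by_contra hk
  exact hS.1 ⟨0, by omega⟩ (bip_mono G U _ (hSU _) hU)

theorem in_le_one {n : ℕ} (G : SimpleGraph (Fin n)) (U : Set (Fin n))
    (h : ∀ S T : Set U, (∀ u ∈ S, ∀ v ∈ T, u ≠ v ∧ ¬ (G.induce U).Adj u v) →
      ¬ ((G.induce U).induce S).IsBipartite → ¬ ((G.induce U).induce T).IsBipartite → False) :
    oddPackingIn G U ≤ 1 := by
  obtain ⟨S, hSU, hS⟩ := exists_oddPackingIn G U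
  by_contra hk
  have h01 : (⟨0, by omega⟩ : Fin (oddPackingIn G U)) ≠ ⟨1, by omega⟩ := by simp
  refine h {v : U | (v : Fin n) ∈ S ⟨0, by omega⟩} {v : U | (v : Fin n) ∈ S ⟨1, by omega⟩} ?_
    (fun h => hS.1 ⟨0, by omega⟩ (bip_restrict G U _ (hSU _) h))
    (fun h => hS.1 ⟨1, by omega⟩ (bip_restrict G U _ (hSU _) h))
  intro u hu v hv
  have := hS.2 _ _ h01 u hu v hv
  exact ⟨fun h => this.1 (congrArg Subtype.val h), fun h => this.2 h⟩

theorem in_codisk {n : ℕ} (G : SimpleGraph (Fin n)) (U : Set (Fin n))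
    (hU : IsCoDisk (G.induce U)) : oddPackingIn G U ≤ 1 := by
  have : Fintype U := Fintype.ofFinite _
  exact in_le_one G U fun S T => codisk_pair (G.induce U) hU S T

theorem in_coball {n : ℕ} (G : SimpleGraph (Fin n)) (U : Set (Fin n))
    (hU : IsCoBall (G.induce U)) : oddPackingIn G U ≤ 1 :=
  in_le_one G U fun S T => coball_pair (G.induce U) hU S T

theorem in_coarc {n : ℕ} (G : SimpleGraph (Fin n)) (U : Set (Fin n))
    (hU : IsCoArc (G.induce U)) : oddPackingIn G U ≤ 1 :=
  in_le_one G U fun S T => coarc_pair (G.induce U) hU S T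

theorem in_cobox {n d : ℕ} (G : SimpleGraph (Fin n)) (U : Set (Fin n))
    (hU : IsCoBox d (G.induce U)) : oddPackingIn G U ≤ d := by
  obtain ⟨S, hSU, hS⟩ := exists_oddPackingIn G U
  refine box_packing (G.induce U) hU (fun i => {v : U | (v : Fin n) ∈ S i})
    (fun i h => hS.1 i (bip_restrict G U _ (hSU _) h)) ?_
  intro i j hij u hu v hv
  have := hS.2 i j hij u hu v hv
  exact ⟨fun h => this.1 (congrArg Subtype.val h), fun h => this.2 h⟩

theorem card_le_im {n : ℕ} (G : SimpleGraph (Fin n)) (X : Set (Fin n))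
    (M : Finset (Fin n × Fin n)) (h1 : ∀ p ∈ M, p.1 ∈ X ∧ G.Adj p.1 p.2)
    (h2 : ∀ p ∈ M, ∀ q ∈ M, p ≠ q → ∀ u ∈ ({p.1, p.2} : Set (Fin n)),
      ∀ v ∈ ({q.1, q.2} : Set (Fin n)), u ≠ v ∧ ¬ G.Adj u v) :
    M.card ≤ inducedMatchingAt G X := by
  let e := M.equivFin
  exact IsInducedMatchingAt.le (a := fun i => (e.symm i).1.1) (b := fun i => (e.symm i).1.2)
    ⟨fun i => h1 _ (e.symm i).2, fun i j hij => h2 _ (e.symm i).2 _ (e.symm j).2
      (fun h => hij (e.symm.injective (Subtype.ext h)))⟩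

/-- The members of a packing inside which some edge meets `X` give an induced matching. -/
theorem split {n k : ℕ} (G : SimpleGraph (Fin n)) (X Y : Set (Fin n)) (S : Fin k → Set (Fin n))
    (hY : ∀ i, S i ⊆ Y) (hS : IsOddPacking G k S) : ∃ M : Finset (Fin n × Fin n),
      (∀ p ∈ M, p.1 ∈ X ∧ G.Adj p.1 p.2) ∧ (∀ p ∈ M, p.1 ∈ Y ∧ p.2 ∈ Y) ∧
      (∀ p ∈ M, ∀ q ∈ M, p ≠ q → ∀ u ∈ ({p.1, p.2} : Set (Fin n)),
        ∀ v ∈ ({q.1, q.2} : Set (Fin n)), u ≠ v ∧ ¬ G.Adj u v) ∧
      k ≤ M.card + oddPackingIn G (Y \ X) := by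
  classical
  let A : Finset (Fin k) :=
    Finset.univ.filter fun i => ∃ u ∈ S i, ∃ v ∈ S i, u ∈ X ∧ G.Adj u v
  have h1 : ∀ i : A, ∃ u ∈ S i, ∃ v ∈ S i, u ∈ X ∧ G.Adj u v := by
    rintro ⟨i, hi⟩
    exact (Finset.mem_filter.1 hi).2
  choose f hf g hg hfg using h1
  have hinj : Function.Injective fun i => (f i, g i) := by
    intro i j hij
    by_contra hne
    exact (hS.2 i j (fun h => hne (Subtype.ext h)) (f i) (hf i) (f j) (hf j)).1
      (congrArg Prod.fst hij)
  refine ⟨Finset.univ.image fun i => (f i, g i), ?_, ?_, ?_, ?_⟩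
  · intro p hp
    obtain ⟨i, -, rfl⟩ := Finset.mem_image.1 hp
    exact hfg i
  · intro p hp
    obtain ⟨i, -, rfl⟩ := Finset.mem_image.1 hp
    exact ⟨hY _ (hf i), hY _ (hg i)⟩
  · intro p hp q hq hpq u hu v hv
    obtain ⟨i, -, rfl⟩ := Finset.mem_image.1 hp
    obtain ⟨j, -, rfl⟩ := Finset.mem_image.1 hq
    have hne : (i : Fin k) ≠ j := fun h => hpq (by rw [Subtype.ext h])
    have hu' : u ∈ S i := by
      rcases hu with rfl | hu
      · exact hf _
      · rw [Set.mem_singleton_iff] at hu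
        subst hu
        exact hg _
    have hv' : v ∈ S j := by
      rcases hv with rfl | hv
      · exact hf _
      · rw [Set.mem_singleton_iff] at hv
        subst hv
        exact hg _
    exact hS.2 _ _ hne u hu' v hv'
  · rw [Finset.card_image_of_injective _ hinj, Finset.card_univ, Fintype.card_coe]
    have hB : Aᶜ.card ≤ oddPackingIn G (Y \ X) := by
      let e := (Aᶜ).equivFin
      refine le_oddPackingIn (S := fun i => S (e.symm i) \ X) ?_ ⟨fun i hbip => ?_,
        fun i j hij u hu v hv => ?_⟩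
      · intro i v hv
        exact ⟨hY _ hv.1, hv.2⟩
      · have h2 := (e.symm i).2
        rw [Finset.mem_compl] at h2
        refine hS.1 (e.symm i) (bip_of_no_edge G X _ ?_ hbip)
        intro u hu v hv hx hadj
        exact h2 (Finset.mem_filter.2 ⟨Finset.mem_univ _, u, hu, v, hv, hx, hadj⟩)
      · exact hS.2 _ _ (fun h => hij (e.symm.injective (Subtype.ext h))) u hu.1 v hv.1
    have hcard := Finset.card_add_card_compl A
    rw [Fintype.card_fin] at hcard
    omega

/-- Deleting a vertex set `X`. -/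
theorem in_le_add {n : ℕ} (G : SimpleGraph (Fin n)) (X Y : Set (Fin n)) :
    oddPackingIn G Y ≤ inducedMatchingAt G X + oddPackingIn G (Y \ X) := by
  obtain ⟨S, hSU, hS⟩ := exists_oddPackingIn G Y
  obtain ⟨M, h1, -, h2, h3⟩ := split G X Y S hSU hS
  exact h3.trans (Nat.add_le_add_right (card_le_im G X M h1 h2) _)

/-- If every component has packing number at most one after the deletion of `X`, then the surplus
is at most the size of an induced matching of edges meeting `X`. -/
theorem surplus_le_im {n : ℕ} (G : SimpleGraph (Fin n)) (X : Set (Fin n))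
    (h : ∀ K : G.ConnectedComponent, oddPackingIn G (K.supp \ X) ≤ 1) :
    surplus G ≤ inducedMatchingAt G X := by
  classical
  have hex : ∀ K : G.ConnectedComponent, ∃ M : Finset (Fin n × Fin n),
      (∀ p ∈ M, p.1 ∈ X ∧ G.Adj p.1 p.2) ∧ (∀ p ∈ M, p.1 ∈ K.supp ∧ p.2 ∈ K.supp) ∧
      (∀ p ∈ M, ∀ q ∈ M, p ≠ q → ∀ u ∈ ({p.1, p.2} : Set (Fin n)),
        ∀ v ∈ ({q.1, q.2} : Set (Fin n)), u ≠ v ∧ ¬ G.Adj u v) ∧
      oddPackingIn G K.supp ≤ M.card + oddPackingIn G (K.supp \ X) := by
    intro K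
    obtain ⟨S, hSU, hS⟩ := exists_oddPackingIn G K.supp
    exact split G X K.supp S hSU hS
  choose M h1 h2 h3 h4 using hex
  unfold surplus
  refine le_trans (Finset.sum_le_sum (g := fun K : G.ConnectedComponent => (M K).card) ?_) ?_
  · intro K _
    have e1 := matchedIn_le_assignedIn G K.supp
    have e2 := h4 K
    have e3 := h K
    have e4 : oddPackingIn G K.supp + matchedIn G K.supp - assignedIn G K.supp ≤
        (M K).card + 1 := by omega
    have e5 : ((M K).card + 1) / 2 ≤ (M K).card := by omega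
    exact (Nat.div_le_div_right e4).trans e5
  · rw [← Finset.card_biUnion]
    · refine card_le_im G X _ ?_ ?_
      · intro p hp
        obtain ⟨K, -, hK⟩ := Finset.mem_biUnion.1 hp
        exact h1 K p hK
      · intro p hp q hq hpq u hu v hv
        obtain ⟨K, -, hK⟩ := Finset.mem_biUnion.1 hp
        obtain ⟨L, -, hL⟩ := Finset.mem_biUnion.1 hq
        by_cases hKL : K = L
        · subst hKL
          exact h3 K p hK q hL hpq u hu v hv
        · have k1 : G.connectedComponentMk u = K := by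
            rcases hu with rfl | hu
            · exact (h2 K p hK).1
            · rw [Set.mem_singleton_iff] at hu
              subst hu
              exact (h2 K p hK).2
          have k2 : G.connectedComponentMk v = L := by
            rcases hv with rfl | hv
            · exact (h2 L q hL).1
            · rw [Set.mem_singleton_iff] at hv
              subst hv
              exact (h2 L q hL).2
          refine ⟨?_, fun hadj => ?_⟩
          · rintro rfl
            exact hKL (k1.symm.trans k2)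
          · refine hKL ?_
            rw [← k1, ← k2]
            exact SimpleGraph.ConnectedComponent.sound hadj.reachable
    · intro K _ L _ hKL
      rw [Function.onFun, Finset.disjoint_left]
      intro p hp hp'
      have k1 : G.connectedComponentMk p.1 = K := (h2 K p hp).1
      have k2 : G.connectedComponentMk p.1 = L := (h2 L p hp').1
      exact hKL (k1.symm.trans k2)

theorem searches_le_im {n : ℕ} (G : SimpleGraph (Fin n)) (X : Set (Fin n))
    (h : ∀ K : G.ConnectedComponent, oddPackingIn G (K.supp \ X) ≤ 1) :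
    searches G ≤ inducedMatchingAt G X :=
  (searches_le_surplus G).trans (surplus_le_im G X h)

theorem comp_near_almostLinear (hB : AlmostLinear fun _ G => G.IsBipartite) (κ : ℕ → ℕ)
    (hκ : ∀ ε : ℝ, 0 < ε → ∃ c : ℝ, ∀ N : ℕ, (κ N : ℝ) ≤ c * ((N : ℝ) + 1) ^ ε) :
    AlmostLinear fun n G => ∃ X : Set (Fin n), inducedMatchingAt G X ≤ κ (n + G.edgeSet.ncard) ∧
      ∀ K : G.ConnectedComponent, oddPackingIn G (K.supp \ X) ≤ 1 := by
  obtain ⟨P, T, hP, hT⟩ := comp_almostLinear hB κ hκ
  refine ⟨P, T, hP.mono ?_ fun _ _ _ => le_rfl, hT⟩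
  rintro n G ⟨X, hX, h⟩
  exact (searches_le_im G X h).trans hX

theorem oddPackingIn_univ {n : ℕ} (G : SimpleGraph (Fin n)) :
    oddPackingIn G Set.univ = oddPacking G := by
  unfold oddPackingIn oddPacking
  congr 1
  ext k
  simp

end Vale.Agent.P305.H529
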